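import Vale.Agent.P074.Main
import Vale.Agent.P074.Brenier
import Vale.Agent.P074.Key
import Vale.Agent.P074.Finite

/-!
# P074: the stability exponent of quadratic optimal transport maps is exactly 1/3

In every dimension `d ≥ 2` the largest admissible stability exponent of quadratic optimal
transport maps from a uniform source on a convex body is exactly `1/3`, and it is attained.
In particular `1/2` is not admissible.
-/

namespace Vale.Agent.Results.P074.ExactExponent

open Vale.Agent.P074 MeasureTheory Set

theorem finiteStability {d : ℕ} (K : Set (E d)) (hK : IsCompact K) (hKc : Convex ℝ K)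
    (hKi : (interior K).Nonempty) : FiniteStability K := by
  obtain ⟨D, hD, hKD⟩ : ∃ D : ℝ, 0 < D ∧ K ⊆ Metric.closedBall 0 D := by
    obtain ⟨R, hR⟩ := hK.isBounded.subset_closedBall 0
    exact ⟨max R 1, lt_of_lt_of_le one_pos (le_max_right _ _),
      hR.trans (Metric.closedBall_subset_closedBall (le_max_left _ _))⟩
  exact finiteStability_of_key (Key.keyProp d hD) hD.le hK hKc hKi hKD

theorem brenierProp (d : ℕ) : BrenierProp d := fun _ hK hKc hKi _ _ hR hμ _ _ hT =>
  exists_potential hK hKc hKi hR hμ hT

theorem result (d : ℕ) (hd : 2 ≤ d) :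
    IsGreatest {α : ℝ | Admissible d α} (1 / 3) ∧
      sSup {α : ℝ | Admissible d α} = 1 / 3 ∧
      ¬ Admissible d (1 / 2) := by
  have h : IsGreatest {α : ℝ | Admissible d α} (1 / 3) :=
    isGreatest_third hd (fun K hK hKc hKi => finiteStability K hK hKc hKi) (brenierProp d)
  refine ⟨h, h.csSup_eq, fun h2 => ?_⟩
  have := h.2 h2
  norm_num at this

end Vale.Agent.Results.P074.ExactExponent
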